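import Crest.Agent.X212.Stp42.Hf
import Crest.Agent.X212.Hl33.Trans
import Crest.Agent.X212.Rgl52.Main

/-!
# X212/Stp42/Main (helper42): STEP, one stage of the hierarchy is one regluing
-/

set_option autoImplicit false
set_option linter.unusedSectionVars false

open Set Filter Topology Function
open scoped ContDiff Manifold
open Crest.Agent.R208.F Crest.Agent.X212.Dr59 Crest.Agent.X212.Int54 Crest.Agent.X212.Cyl58
open Crest.Agent.X212.Sep15 (EE IR CM Box slab px Rg mem_slab slab_mono isClosed_slab)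
open Crest.Agent.X212.Bb31 (Fm Df Pos)
open Crest.Agent.X212.Flo26 (SmV fl)
open Crest.Agent.X212.Line51 (CSm)
open Crest.Agent.X212.Hel40

noncomputable section

namespace Crest.Agent.X212.Stp42

variable {Y : CM 3} {R : CM 2} {o : Fm 3 Y} {v : Vf Y} {Φ : Y → Circle} {oR : Fm 2 R}
  {b : R × ℝ → Y}

theorem dl_b (hb : Box b) {G : Y → Circle} {p : R × ℝ} (hG : CSm (𝓡 3) G (b p)) {κ : ℝ → ℝ}
    (hκ : ContDiff ℝ ∞ κ) (e : ∀ᶠ q in 𝓝 p, G (b q) = Circle.exp (κ q.2)) (w : EE 2 × ℝ) :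
    dl (𝓡 3) G (b p) (mf (IR 2) (𝓡 3) b p w) = deriv κ p.2 * w.2 := by
  have h1 : ContMDiffAt (IR 2) 𝓘(ℝ, ℝ) ∞ (κ ∘ Prod.snd : R × ℝ → ℝ) p :=
    hκ.contMDiff.contMDiffAt.comp p contMDiffAt_snd
  rw [← dl_comp hG ((hb.contMDiff p).mdifferentiableAt (by simp)),
    dl_congr (g := G ∘ b) (h := fun q => Circle.exp ((κ ∘ Prod.snd) q)) e, dl_exp h1,
    mf_comp (hκ.contMDiff.mdifferentiableAt (by simp)) mdifferentiableAt_snd, mf_snd, mf_eq_fderiv]
  exact fderiv_eq_deriv_mul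

/-- a function of the height has a differential proportional to that of `Φ` -/
theorem dl_vert (X : Bx o v Φ oR b) (hΦ : SC Φ) {G : Y → Circle} {p : R × ℝ}
    (hG : CSm (𝓡 3) G (b p)) {κ : ℝ → ℝ} (hκ : ContDiff ℝ ∞ κ)
    (e : ∀ᶠ q in 𝓝 p, G (b q) = Circle.exp (κ q.2)) :
    ∃ c : ℝ, dl (𝓡 3) G (b p) = c • dl (𝓡 3) Φ (b p) := by
  have h1 := dl_b X.box (hΦ _) contDiff_cayA (.of_forall X.ang) (p := p)
  rw [(((Real.hasDerivAt_arctan p.2).const_mul 2).const_add Real.pi).deriv] at h1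
  refine ⟨deriv κ p.2 * (1 + p.2 ^ 2) / 2, LinearMap.ext fun u => ?_⟩
  obtain ⟨w, rfl⟩ : ∃ w, mf (IR 2) (𝓡 3) b p w = u :=
    ((X.box.loc p).mfderivToContinuousLinearEquiv (by simp)).surjective u
  rw [LinearMap.smul_apply, dl_b X.box hG hκ e, h1, smul_eq_mul]
  field_simp

theorem loc_const {X : Type*} [TopologicalSpace X] {l : X → ℝ} (hl : Continuous l) {x : X}
    (h : ∀ᶠ x' in 𝓝 x, Circle.exp (l x') = 1) : ∀ᶠ x' in 𝓝 x, l x' = l x := by
  filter_upwards [h, (hl.sub (continuous_const (y := l x))).abs.continuousAt.eventually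
    (gt_mem_nhds (a := 2 * Real.pi) (by simpa using Real.pi_pos))] with x' h1 h2
  exact exp_inj (h1.trans h.self_of_nhds.symm) h2

theorem lat_eq {z w : ℂ} (h : Lat z w) (hd : dist z w < 1) : z = w := by
  obtain ⟨m, n, rfl⟩ := h
  rw [dist_comm, dist_eq_norm] at hd
  have h1 := (Complex.abs_re_le_norm _).trans_lt hd
  have h2 := (Complex.abs_im_le_norm _).trans_lt hd
  simp only [Complex.sub_re, Complex.add_re, Complex.intCast_re, Complex.mul_re, Complex.I_re,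
    Complex.intCast_im, Complex.I_im, Complex.sub_im, Complex.add_im, Complex.mul_im] at h1 h2
  have h3 : m = 0 := Hd34.int_zero (by linarith [(abs_lt.1 h1).1]) (by linarith [(abs_lt.1 h1).2])
  have h4 : n = 0 := Hd34.int_zero (by linarith [(abs_lt.1 h2).1]) (by linarith [(abs_lt.1 h2).2])
  simp [h3, h4]

/-- **STEP** -/
theorem step (surf : SurfStmt) (psi : PsiStmt) (band : BandStmt) : StepStmt := by
  intro Y o v Φ M M' U K δ a E S n H hS hi ha
  obtain ⟨R, oR, b, ψ, h, D, l₁, l₂, L, c, e₁, e₂, δ', W, P⟩ := half surf S H hS ha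
  have B := H.bas
  have X := P.bx
  have Cl := H.hcol
  have a4 : Real.pi < a := Real.pi_lt_four.trans_le (ha.elim (fun e => by linarith) fun e => e.1.ge)
  obtain ⟨Y', b', ⟨G⟩⟩ := Sep15.rgStmt Y R b h X.box
  obtain ⟨o', v', Φ₁, B', X', -, r1, r2, r3, r4, r5⟩ :=
    Rgl52.regl Box46.trk Y Y' R b b' h G o oR v Φ M B X P.pos
  have src := Rgl52.src_iff G X.rg X.ang
  have Mb : ∀ y ∈ M, ∀ s, y ∉ slab b s := fun y hy s ⟨p, _, e⟩ =>
    cay_ne_one _ ((X.ang p).symm.trans (e ▸ B.one y hy))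
  have sM : M' ⊆ M := fun y hy => ((S.meq' y).1 hy).1
  have Ms : M ⊆ G.φ.source := fun y hy => G.src ▸ Mb y hy _
  have Cs : ∀ {K'}, col v Φ K' ⊆ G.φ.source := fun hy => (src _).2 (col_ne B.smv hy)
  have Ps : PP Φ M ⊆ G.φ.source := fun y hy => Cs (mem_col B.smv hy hy.1)
  have inj := G.φ.toPartialEquiv.injOn
  have sφ : ∀ y ∈ G.φ.source, ContMDiffAt (𝓡 3) (𝓡 3) ∞ G.φ y := fun y hy => Hl33.sm_at hy
  obtain ⟨tr1, tr2⟩ := Hl33.transStmt Y Y' v v' G.φ (slab b (Icc (-1) 1))ᶜ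
    (isClosed_slab X.box isCompact_Icc).isOpen_compl
    (fun y hy => G.mem_of_notMem (s := Icc (-1) 1) ⟨by norm_num, by norm_num⟩ hy) r3
  obtain ⟨S', hS', nS⟩ := tr1 M M' S (fun y hy => Mb y hy _) hS
  obtain ⟨ψ', χ, sψ, sχ, p1, p2, p3⟩ := psi Y Y' R b b' h G ψ D l₁ l₂
    (P.smψ.mono fun y hy => (src y).1 (G.src ▸ hy)) P.smD P.sm₁ P.sm₂ P.eq
  have cl : ∀ {K'}, K' ⊆ PP Φ M → ∀ x, b' (h x, 5) ∈ col v' Φ₁ (G.φ '' K') ↔
      b (x, 5) ∈ col v Φ K' := fun hK x => by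
    rw [r5 _ hK, show b' (h x, 5) = G.φ (b (x, 5)) from (G.hi (x, 5) (by norm_num)).symm]
    exact inj.mem_image_iff Cs (G.b_mem.2 (by norm_num))
  have dL : PP Φ₁ (G.φ '' M) \ G.φ '' L = G.φ '' (PP Φ M \ L) := by
    rw [r4, (inj.mono Ps).image_sdiff_subset P.sub]
  have i5 : (5 : ℝ) ∈ Ioc (0 : ℝ) 7 := ⟨by norm_num, by norm_num⟩
  obtain ⟨k₀, hk⟩ := band Y' R o' v' Φ₁ (G.φ '' M) (G.φ '' M') (G.φ '' L)
    (slab b' (Icc (-4) 4) ∪ col v' Φ₁ (G.φ '' L)) oR b' S' ψ' (fun x => ψ (b (h.symm x, 5)))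
    (h ∘ c) (h ∘ e₂) δ' B' X' hS'
    (P.cpt.image_of_continuousOn fun y hy => (sφ y (Ps (P.sub hy))).continuousAt.continuousWithinAt)
    (r4 ▸ image_mono P.sub)
    (r4 ▸ H.conn.image _ fun y hy => (sφ y (Ps hy)).continuousAt.continuousWithinAt)
    (dL ▸ P.cn.image _ fun y hy => (sφ y (Ps hy.1)).continuousAt.continuousWithinAt) P.conn sψ
    (mem_nhdsSet_iff_forall.2 (by
      rintro _ ⟨y, hy, rfl⟩
      have t : Tendsto G.φ.symm (𝓝 (G.φ y)) (𝓝 y) := by
        have := (Hl33.sm_symm (Ms hy)).continuousAt.tendsto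
        rwa [show G.φ.symm (G.φ y) = y from G.φ.left_inv (Ms hy)] at this
      filter_upwards [G.φ.open_target.mem_nhds (G.φ.map_source (Ms hy)),
        t (mem_nhdsSet_iff_forall.1 nS y hy), t (mem_nhdsSet_iff_forall.1 P.near y hy),
        t ((isClosed_slab X.box (isCompact_Icc (a := -4) (b := 4))).isOpen_compl.mem_nhds
          (Mb y hy _))] with z z1 z2 z3 z4
      rw [← show G.φ (G.φ.symm z) = z from G.φ.right_inv z1]
      exact ((p1 _ fun c => z4 (slab_mono b Ioo_subset_Icc_self c)).trans z3).trans z2.symm))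
    (fun x s hs => by
      obtain ⟨x, rfl⟩ : ∃ y, h y = x := h.surjective x
      have s0 : 0 < s := by linarith [hs.1]
      rw [show b' (h x, s) = G.φ (b (x, s)) from (G.hi (x, s) s0).symm,
        p1 _ fun c => ((mem_slab X.box).1 c).2.not_ge hs.1, h.symm_apply_apply, (P.eq x 5 i5).1,
        (P.eq x s ⟨s0, by linarith [hs.2]⟩).1])
    (fun x hx => by
      obtain ⟨x, rfl⟩ : ∃ y, h y = x := h.surjective x
      exact h.symm.continuous.continuousAt ((h.symm_apply_apply x).symm ▸ P.one x ((cl P.sub x).1 hx)))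
    ⟨h.continuous.comp P.dual.1, fun t => congrArg h (P.dual.2.1 t), by
      simpa only [comp_apply, h.symm_apply_apply] using P.dual.2.2⟩
    (fun t => dL ▸ (cl sdiff_subset _).2 (P.dcol t))
    ⟨P.hdl.pos, P.hdl.lt, fun z hz => ld_comp (h.isLocalDiffeomorph _) (P.hdl.ld z hz),
      fun z hz w hw => h.injective.eq_iff.trans (P.hdl.eq z hz w hw)⟩
    (fun z hz => ⟨by simpa only [comp_apply, h.symm_apply_apply] using (P.free z hz).1,
      fun c => (P.free z hz).2 ((cl P.sub _).1 c)⟩) Subset.rfl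
  obtain ⟨K', E', H'⟩ := hk (max k₀ 1) (le_max_left _ _)
  have k0 : 0 < max k₀ 1 := lt_max_of_lt_right one_pos
  generalize max k₀ 1 = k at H' k0
  have ps : ∀ {K'}, K' ⊆ PP Φ M → ∀ y ∈ col v Φ K',
      0 < dl (𝓡 3) (ψ' * Φ₁ ^ k) (G.φ y) (mf (𝓡 3) (𝓡 3) G.φ y (v y)) := fun hK y hy => by
    obtain ⟨g, g0, g1⟩ : ∃ g > (0 : ℝ), mf (𝓡 3) (𝓡 3) G.φ y (v y) = g • Box46.vv v' (G.φ y) :=
      r2 y (Cs hy)
    rw [g1, map_smul]
    exact mul_pos g0 (H'.bas.pos _ fun c => B.col_notMem hK hy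
      (sM ((inj.mem_image_iff (sM.trans Ms) (Cs hy)).1 c)))
  obtain ⟨z₀, z0⟩ := P.neW
  have cE : ∀ p : ℂ × ℝ, p.1 ∈ W → |p.2| < Real.pi → E p ∈ col v Φ L := fun p h1 h2 =>
    colE B.smv Cl (P.subW h1) (n := 0) (h2.trans a4) (by simpa using Real.pi_pos.trans a4)
      (by simpa using h2) (by simpa using P.memW _ h1)
  refine ⟨Y', o', v', _, _, _, K', δ', E', R, oR, b, b', h, G, H', tr2 n M'
    (fun y hy => Mb y (sM hy) _) hi, X.ori, P.conn, P.kk, B.smΦ, H'.bas.smΦ, X.ang, ?_,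
    (slab_mono b' (Icc_subset_Icc (by norm_num) (by norm_num))).trans subset_union_left,
    fun y hy hn => ?_, W ∩ Metric.ball z₀ (1 / 2), G.φ ∘ E, h ∘ e₁, e₂,
    P.opW.inter Metric.isOpen_ball, ⟨z₀, z0, Metric.mem_ball_self one_half_pos⟩,
    fun p h1 h2 => ld_comp (Orx52.ldp G.φ (Cs (cE p h1.1 h2))) (Cl.ld p (P.subW h1.1) (h2.trans a4)),
    fun p hp q hq e => ?_, fun z hz θ hθ => ?_, fun z hz θ hθ => ?_, fun z hz c => ?_,
    fun p h1 h2 => .inr (r5 L P.sub ▸ mem_image_of_mem _ (cE p h1.1 h2)), fun p h1 h2 => ?_⟩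
  · obtain ⟨A, B₀, δ₁, ε₁, q1, q2, q3, q4⟩ := P.hd
    refine ⟨k, A, B₀, δ₁, ε₁, k0, q1, q2, q3, fun p hp => ?_⟩
    rw [Pi.mul_apply, Pi.pow_apply, p2 p hp.le, X'.ang, q4, mul_comm]
  · have hK : y ∈ col v Φ K := (hy.elim (H.ctl ·) .inl).resolve_left fun c => by
      obtain ⟨p, rfl⟩ : y ∈ range b := X.rg.ge fun e => by
        rw [Mid, mem_ofPred, e] at c
        exact c.not_ge zero_le_one
      rw [Mid, mem_ofPred, X.ang] at c
      exact hn ((mem_slab X.box).2 (cay_re_neg.1 c))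
    have s1 : CSm (𝓡 3) (ψ' ∘ G.φ) y := (sψ _).comp y (sφ y (Cs hK))
    obtain ⟨c, hc⟩ : ∃ c : ℝ, dl (𝓡 3) (ψ' ∘ G.φ) y = c • dl (𝓡 3) Φ y := by
      by_cases c : y ∈ slab b (Icc (-4) 4)
      · obtain ⟨⟨x, s⟩, ⟨-, hs⟩, rfl⟩ := c
        have o1 := (X.box.continuous.comp (.prodMk_left s)).continuousAt (P.oneK _ hK)
        rcases (G.b_mem.1 (Cs hK)).lt_or_gt with s0 | s0
        · have o2 := P.one₂ x s s0 hK
          have o3 : ∀ᶠ x' in 𝓝 x, l₂ x' = l₂ x := loc_const P.sm₂.continuous (by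
            filter_upwards [o1, o2] with x' h1 h2
            have := (P.eq x' (-s) ⟨neg_pos.2 s0, by linarith [hs.1]⟩).2
            rw [neg_neg, h2, one_mul] at this
            exact this.symm.trans h1)
          refine dl_vert X B.smΦ s1 (κ := fun s => χ (-s) * l₂ x)
            ((sχ.comp contDiff_neg).mul contDiff_const) ?_
          filter_upwards [continuousAt_fst (p := (x, s)) o2, continuousAt_fst (p := (x, s)) o3,
            continuousAt_snd (p := (x, s)) (Ioo_mem_nhds (a := -7) (by linarith [hs.1]) s0)]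
            with q h1 h2 h3
          have := (p3 q.1 (-q.2) ⟨neg_pos.2 h3.2, by linarith [h3.1]⟩).2
          rw [neg_neg, show D q.1 = 1 from h1, show l₂ q.1 = l₂ x from h2, one_mul] at this
          exact (congrArg ψ' (G.lo q h3.2)).trans this
        · have o2 := P.one₁ x s s0 hK
          have o3 : ∀ᶠ x' in 𝓝 x, l₁ x' = l₁ x := loc_const P.sm₁.continuous (by
            filter_upwards [o1, o2] with x' h1 h2
            have := (P.eq x' s ⟨s0, by linarith [hs.2]⟩).1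
            rw [h2, one_mul] at this
            exact this.symm.trans h1)
          refine dl_vert X B.smΦ s1 (κ := fun s => χ s * l₁ x) (sχ.mul contDiff_const) ?_
          filter_upwards [continuousAt_fst (p := (x, s)) o2, continuousAt_fst (p := (x, s)) o3,
            continuousAt_snd (p := (x, s)) (Ioo_mem_nhds (b := 7) s0 (by linarith [hs.2]))]
            with q h1 h2 h3
          have := (p3 q.1 q.2 ⟨h3.1, h3.2.le⟩).1
          rw [show D (h q.1) = 1 from h1, show l₁ q.1 = l₁ x from h2, one_mul] at this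
          exact (congrArg ψ' (G.hi q h3.1)).trans this
      · refine ⟨0, (dl_of_const (c := 1) ?_).trans (zero_smul _ _).symm⟩
        filter_upwards [P.oneK y hK, (isClosed_slab X.box isCompact_Icc).isOpen_compl.mem_nhds c]
          with z z1 z2
        exact (p1 z fun c => z2 (slab_mono b Ioo_subset_Icc_self c)).trans z1
    have e : dl (𝓡 3) ((ψ' * Φ₁ ^ k) ∘ G.φ) y = (c + k) • dl (𝓡 3) Φ y := by
      rw [add_smul, ← hc, ← dl_pow (B.smΦ y), ← dl_mul s1 ((show CSm (𝓡 3) Φ y from B.smΦ y).pow k)]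
      refine dl_congr ?_
      filter_upwards [G.φ.open_source.mem_nhds (Cs hK)] with z hz
      simp only [comp_apply, Pi.mul_apply, Pi.pow_apply, r1 z hz]
    refine ⟨.inr (r5 L P.sub ▸ mem_image_of_mem _ (col_mono P.KL hK)), c + k, ?_, e⟩
    have h1 := (ps H.sub y hK).trans_eq
      (dl_comp (H'.bas.smΦ _) ((sφ y (Cs hK)).mdifferentiableAt (by simp)) (v y)).symm
    rw [e] at h1
    exact pos_of_mul_pos_left h1 (B.nn y)
  · have h1 := (Cl.eq p q (P.subW hp.1.1) (hp.2.trans a4) (P.subW hq.1.1) (hq.2.trans a4)).1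
      (inj (Cs (cE p hp.1.1 hp.2)) (Cs (cE q hq.1.1 hq.2)) e)
    refine Prod.ext (lat_eq h1.2 ((dist_triangle_right _ _ z₀).trans_lt ?_)) h1.1
    linarith [Metric.mem_ball.1 hp.1.2, Metric.mem_ball.1 hq.1.2]
  · have h1 : 0 < Real.tan ((θ + Real.pi) / 2) :=
      Real.tan_pos_of_pos_of_lt_pi_div_two (by linarith [hθ.1]) (by linarith [hθ.2])
    refine Eq.trans (congrArg G.φ ?_) (G.hi (e₁ z, Real.tan ((θ + Real.pi) / 2)) h1)
    rw [P.lo z hz.1 _ h1, Real.arctan_tan (by linarith [hθ.1, Real.pi_pos]) (by linarith [hθ.2])]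
    congr 2
    ring
  · have h1 : Real.tan ((θ - Real.pi) / 2) < 0 :=
      Real.tan_neg_of_neg_of_pi_div_two_lt (by linarith [hθ.2]) (by linarith [hθ.1])
    refine Eq.trans (congrArg G.φ ?_) (G.lo (e₂ z, Real.tan ((θ - Real.pi) / 2)) h1)
    rw [P.hi z hz.1 _ h1, Real.arctan_tan (by linarith [hθ.1]) (by linarith [hθ.2, Real.pi_pos])]
    congr 2
    ring
  · have h1 := P.sub (P.memW z hz.1)
    exact X'.rg.le c ((r1 _ (Ps h1)).trans h1.1)
  · obtain ⟨g, g0, g1⟩ : ∃ g > (0 : ℝ), mf ICR (𝓡 3) E p (0, 1) = g • Box46.vv v (E p) :=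
      Cl.vert p (P.subW h1.1) (h2.trans a4)
    rw [mf_comp ((sφ _ (Cs (cE p h1.1 h2))).mdifferentiableAt (by simp))
      ((Cl.ld p (P.subW h1.1) (h2.trans a4)).mdifferentiableAt (by simp)),
      ContinuousLinearMap.comp_apply, g1, map_smul, map_smul]
    exact mul_pos g0 (ps P.sub _ (cE p h1.1 h2))

end Crest.Agent.X212.Stp42
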