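import Crest.Agent.X212.Hel40.Stp
import Crest.Agent.X212.Hat42.Main
import Crest.Agent.X212.Hd34.Hd
import Crest.Agent.X212.Hd34.Del
import Crest.Agent.X212.Box46.Box
import Crest.Agent.X212.Hl33.Conn
import Crest.Agent.X212.Hl33.Foot
import Crest.Agent.X212.Lsf39.Ext

/-!
# X212/Stp42/Hf (helper42): the first half of STEP (everything before the regluing)
-/

set_option autoImplicit false
set_option linter.unusedSectionVars false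

open Set Filter Topology Function
open scoped ContDiff Manifold
open Crest.Agent.R208.F Crest.Agent.X212.Dr59 Crest.Agent.X212.Int54 Crest.Agent.X212.Cyl58
open Crest.Agent.X212.Sep15 (EE IR CM Box slab px Rg)
open Crest.Agent.X212.Bb31 (Fm Df Pos)
open Crest.Agent.X212.Flo26 (SmV fl)
open Crest.Agent.X212.H7 (KK Hd)
open Crest.Agent.X212.Line51 (CSm)
open Crest.Agent.X212.Hel40

noncomputable section

namespace Crest.Agent.X212.Stp42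

variable {Y : CM 3} {R : CM 2} {o : Fm 3 Y} {v : Vf Y} {Φ : Y → Circle} {M K L : Set Y}
  {oR : Fm 2 R} {b : R × ℝ → Y} {F : Set R} {f : Y → R} {π : R → Y} {σ δ a : ℝ} {E : ℂ × ℝ → Y}

/-- the lines of a handle column are columns -/
theorem colE (hv : SmV (𝓡 3) v) (C : Col v Φ δ a E) {z : ℂ} (hz : z ∈ Xo δ) {θ : ℝ} {n : ℤ}
    (h1 : |θ| < a) (h2 : |2 * Real.pi * n| < a) (h3 : |θ - 2 * Real.pi * n| < Real.pi)
    (hL : E (z, 2 * Real.pi * n) ∈ L) : E (z, θ) ∈ col v Φ L := by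
  have sub : uIcc θ (2 * Real.pi * n) ⊆ Ioo (-a) a :=
    ordConnected_Ioo.uIcc_subset (abs_lt.1 h1) (abs_lt.1 h2)
  obtain ⟨τ, t1, -, t3⟩ := Box46.trk Y v (fun t => E (z, t)) (-a) a hv fun t ht => by
    have l := C.ld (z, t) hz (abs_lt.2 ht)
    obtain ⟨g, g0, g1⟩ : ∃ g > (0 : ℝ), mf ICR (𝓡 3) E (z, t) (0, 1) = g • Box46.vv v (E (z, t)) :=
      C.vert (z, t) hz (abs_lt.2 ht)
    refine ⟨l.contMDiffAt.comp t (contMDiffAt_const.prodMk contMDiffAt_id), fun e => ?_, g, g0, ?_⟩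
    · rw [show Box46.vv v (E (z, t)) = 0 from e, smul_zero] at g1
      exact one_ne_zero (congrArg Prod.snd (Box46.ld_inj l (g1.trans (map_zero _).symm)))
    · exact ((Box46.mf_line (hasDerivAt_id t) (l.mdifferentiableAt (by simp))).trans
        (one_smul _ _)).trans g1
  refine ⟨τ _ - τ θ, (t3 θ (sub left_mem_uIcc) _ (sub right_mem_uIcc)).symm ▸ hL, fun t ht => ?_⟩
  obtain ⟨r, r1, r2⟩ := intermediate_value_uIcc ((t1.mono sub).sub (continuousOn_const (c := τ θ)))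
    (show t ∈ uIcc (τ θ - τ θ) (τ (2 * Real.pi * n) - τ θ) by rwa [sub_self])
  rw [← r2, Pi.sub_apply, t3 θ (sub left_mem_uIcc) r (sub r1), C.ang (z, r) hz (abs_lt.2 (sub r1)),
    show Circle.exp (z, r).2 = Circle.exp (r - 2 * Real.pi * n) from
      Circle.exp_eq_exp.2 ⟨n, by ring⟩]
  have := abs_lt.1 h3
  refine exp_ne_neg (abs_lt.2 ?_)
  rcases mem_uIcc.1 r1 with c | c <;> constructor <;> linarith [c.1, c.2, Real.pi_pos]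

section ft

variable (B : Bas o v Φ M) (T : Ft v Φ M b σ F f π) (hL : L ⊆ PP Φ M)
include B T hL

theorem mem_img {x : R} : x ∈ f '' L ↔ x ∈ F ∧ π x ∈ L :=
  ⟨fun ⟨y, hy, e⟩ => e ▸ ⟨T.maps (mem_col B.smv (hL hy) (hL hy).1), (T.right y (hL hy)).symm ▸ hy⟩,
    fun h => ⟨_, h.2, T.left x h.1⟩⟩

theorem col_iff {y : Y} : y ∈ col v Φ L ↔ y ∈ col v Φ (PP Φ M) ∧ f y ∈ f '' L := by
  rw [T.colK L hL, mem_img B T hL]
  exact and_congr_right fun h => (and_iff_right (T.maps h)).symm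

theorem b_col {x : R} {s : ℝ} (hs : 0 < σ * s) : b (x, s) ∈ col v Φ L ↔ x ∈ f '' L := by
  rw [col_iff B T hL, T.mem x s hs, T.box x s hs]
  exact and_iff_right_of_imp fun h => ((mem_img B T hL).1 h).1

theorem cont_f : ContinuousOn f L :=
  T.sm.continuousOn.mono fun _ hy => mem_col B.smv (hL hy) (hL hy).1

theorem conn_up (h : IsPreconnected (PP Φ M \ L)) : IsPreconnected (F \ f '' L) := by
  convert h.image f (cont_f B T sdiff_subset) using 1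
  ext x
  rw [mem_img B T sdiff_subset, Set.mem_sdiff, mem_img B T hL]
  exact ⟨fun c => ⟨c.1, T.maps' c.1, fun c' => c.2 ⟨c.1, c'⟩⟩, fun c => ⟨c.1, fun c' => c.2.2 c'.2⟩⟩

theorem conn_dn (h : IsPreconnected (F \ f '' L)) : IsPreconnected (PP Φ M \ L) := by
  convert h.image π (T.cont.mono sdiff_subset) using 1
  ext y
  refine ⟨fun c => ⟨f y, ⟨T.maps (mem_col B.smv c.1 c.1.1), fun c' => c.2 ?_⟩, T.right y c.1⟩, ?_⟩
  · exact T.right y c.1 ▸ ((mem_img B T hL).1 c').2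
  · rintro ⟨x, hx, rfl⟩
    exact ⟨T.maps' hx.1, fun c => hx.2 ((mem_img B T hL).2 ⟨hx.1, c⟩)⟩

end ft

/-- the output of the first half -/
structure Hf (o : Fm 3 Y) (v : Vf Y) (Φ : Y → Circle) (M K : Set Y) (δ : ℝ) (E : ℂ × ℝ → Y)
    (φ : Y → Circle) (oR : Fm 2 R) (b : R × ℝ → Y) (ψ : Y → Circle) (h : Df R) (D : R → Circle)
    (l₁ l₂ : R → ℝ) (L : Set Y) (c : ℝ → R) (e₁ e₂ : ℂ → R) (δ' : ℝ) (W : Set ℂ) : Prop where
  bx : Bx o v Φ oR b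
  conn : IsPreconnected (univ : Set R)
  kk : KK oR h
  pos : Pos oR h
  hd : ∃ A B δ₁ ε₁, Hd oR A B δ₁ ∧ 0 < ε₁ ∧ ε₁ < δ₁ ∧ D = del A ε₁
  smD : SC D
  sm₁ : ContMDiff (𝓡 2) 𝓘(ℝ, ℝ) ∞ l₁
  sm₂ : ContMDiff (𝓡 2) 𝓘(ℝ, ℝ) ∞ l₂
  smψ : ContMDiffOn (𝓡 3) (𝓡 1) ∞ ψ {y | (Φ y : ℂ) ≠ -1}
  near : ∀ᶠ y in 𝓝ˢ M, ψ y = φ y
  eq : ∀ x, ∀ s ∈ Ioc (0 : ℝ) 7,
    ψ (b (x, s)) = D (h x) * Circle.exp (l₁ x) ∧ ψ (b (x, -s)) = D x * Circle.exp (l₂ x)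
  cpt : IsCompact L
  sub : L ⊆ PP Φ M
  KL : K ⊆ L
  cn : IsPreconnected (PP Φ M \ L)
  one : ∀ x, b (x, 5) ∈ col v Φ L → ∀ᶠ x' in 𝓝 x, ψ (b (x', 5)) = 1
  dual : Dual (fun x => ψ (b (x, 5))) c
  dcol : ∀ t, b (c t, 5) ∈ col v Φ (PP Φ M \ L)
  hdl : Hdl e₂ δ'
  free : ∀ z ∈ Xo δ', ψ (b (e₂ z, 5)) = 1 ∧ b (e₂ z, 5) ∉ col v Φ L
  oneK : ∀ y ∈ col v Φ K, ∀ᶠ z in 𝓝 y, ψ z = 1
  one₁ : ∀ x, ∀ s > (0 : ℝ), b (x, s) ∈ col v Φ K → ∀ᶠ x' in 𝓝 x, D (h x') = 1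
  one₂ : ∀ x, ∀ s < (0 : ℝ), b (x, s) ∈ col v Φ K → ∀ᶠ x' in 𝓝 x, D x' = 1
  opW : IsOpen W
  neW : W.Nonempty
  subW : W ⊆ Xo δ
  memW : ∀ z ∈ W, E (z, 0) ∈ L
  lo : ∀ z ∈ W, ∀ s > (0 : ℝ), b (e₁ z, s) = E (z, -Real.pi + 2 * Real.arctan s)
  hi : ∀ z ∈ W, ∀ s < (0 : ℝ), b (e₂ z, s) = E (z, Real.pi + 2 * Real.arctan s)

theorem half (surf : SurfStmt) {M' U : Set Y} (S : Pre v M M') (H : St o v Φ M U K δ a E)
    (hS : S.Cd true) (ha : a = 10 ∨ (a = 4 ∧ K = ∅ ∧ ∀ y, S.φ y = 1)) :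
    ∃ (R : CM 2) (oR : Fm 2 R) (b : R × ℝ → Y) (ψ : Y → Circle) (h : Df R) (D : R → Circle)
      (l₁ l₂ : R → ℝ) (L : Set Y) (c : ℝ → R) (e₁ e₂ : ℂ → R) (δ' : ℝ) (W : Set ℂ),
      Hf o v Φ M K δ E S.φ oR b ψ h D l₁ l₂ L c e₁ e₂ δ' W := by
  have B := H.bas
  have Cl := H.hcol
  have p3 := Real.pi_gt_three
  have p4 := Real.pi_lt_four
  have a4 : 4 ≤ a := ha.elim (fun e => by linarith) fun e => e.1.ge
  have at1 := Real.arctan_lt_pi_div_two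
  have at2 := Real.neg_pi_div_two_lt_arctan
  have E0 : ∀ z ∈ Xo δ, E (z, 0) ∈ PP Φ M \ K := fun z hz => by
    simpa using H.free z hz 0 (by simp; linarith)
  have c0 : ∀ z ∈ Xo δ, ∀ θ, |θ| < Real.pi → E (z, θ) ∈ col v Φ {E (z, 0)} := fun z hz θ h =>
    colE B.smv Cl hz (n := 0) (by linarith) (by simp; linarith) (by simpa using h) (by simp)
  obtain ⟨R, oR, b, X⟩ := Box46.box Y o v Φ B.ori B.smv B.smΦ fun y h =>
    B.pos y fun c => h (B.one y c)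
  have cR := Hl33.connStmt Box46.trk Y R o v Φ M M' oR b S B X hS
    ⟨⟨_, (E0 0 (.inl ⟨0, by simpa using Cl.pos⟩)).1⟩, H.conn⟩
  have nR : Nonempty R := ⟨cR.nonempty.some⟩
  obtain ⟨F₁, f₁, π₁, T₁⟩ := Hl33.footStmt Box46.trk Y R o v Φ M oR b 1 B X (.inl rfl) nR
  obtain ⟨F₂, f₂, π₂, T₂⟩ := Hl33.footStmt Box46.trk Y R o v Φ M oR b (-1) B X (.inr rfl) nR
  obtain ⟨e₁, h₁, s₁⟩ := Box46.sheet Y R o v Φ oR b δ a E (-1) B.smv B.smΦ X Cl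
    (abs_lt.2 (by push_cast; constructor <;> linarith))
  obtain ⟨e₂, h₂, s₂⟩ := Box46.sheet Y R o v Φ oR b δ a E 0 B.smv B.smΦ X Cl
    (abs_lt.2 (by push_cast; constructor <;> linarith))
  simp only [show ((2 * (-1 : ℤ) + 1 : ℝ)) * Real.pi = -Real.pi by push_cast; ring] at s₁
  simp only [show ((2 * (0 : ℤ) + 1 : ℝ)) * Real.pi = Real.pi by push_cast; ring] at s₂
  have g₁ : ∀ s > (0 : ℝ), |-Real.pi + 2 * Real.arctan s| < Real.pi := fun s hs =>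
    abs_lt.2 ⟨by linarith [Real.arctan_pos.2 hs], by linarith [at1 s]⟩
  have g₂ : ∀ s < (0 : ℝ), |Real.pi + 2 * Real.arctan s| < Real.pi := fun s hs =>
    abs_lt.2 ⟨by linarith [at2 s], by linarith [Real.arctan_lt_zero.2 hs]⟩
  have t₁ : ∀ z ∈ Xo δ, ∀ s > (0 : ℝ), b (e₁ z, s) = E (z, -Real.pi + 2 * Real.arctan s) :=
    fun z hz s hs => s₁ z hz s (by linarith [g₁ s hs])
  have t₂ : ∀ z ∈ Xo δ, ∀ s < (0 : ℝ), b (e₂ z, s) = E (z, Real.pi + 2 * Real.arctan s) :=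
    fun z hz s hs => s₂ z hz s (by linarith [g₂ s hs])
  have sg : ∀ z ∈ Xo δ, {E (z, 0)} ⊆ PP Φ M := fun z hz => singleton_subset_iff.2 (E0 z hz).1
  have q₁ : ∀ z ∈ Xo δ, e₁ z ∈ F₁ ∧ π₁ (e₁ z) = E (z, 0) := fun z hz =>
    (mem_img B T₁ (sg z hz)).1 ((b_col B T₁ (sg z hz) (s := 1) (by simp)).1
      (t₁ z hz 1 one_pos ▸ c0 z hz _ (g₁ 1 one_pos)))
  have q₂ : ∀ z ∈ Xo δ, e₂ z ∈ F₂ ∧ π₂ (e₂ z) = E (z, 0) := fun z hz =>
    (mem_img B T₂ (sg z hz)).1 ((b_col B T₂ (sg z hz) (s := -1) (by simp)).1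
      (t₂ z hz (-1) neg_one_lt_zero ▸ c0 z hz _ (g₂ _ neg_one_lt_zero)))
  have q₃ : a = 10 → ∀ z ∈ Xo δ, e₂ z ∈ F₁ \ f₁ '' K := fun e z hz => by
    have h1 : |2 * Real.pi * (1 : ℤ)| < a := abs_lt.2 (by push_cast; constructor <;> linarith)
    have h2 : |Real.pi + 2 * Real.arctan 1| < a := abs_lt.2 ⟨by linarith [at2 1], by linarith [at1 1]⟩
    have h3 := (mem_img B T₁ sdiff_subset).1 ((b_col B T₁ sdiff_subset (s := 1) (by simp)).1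
      (s₂ z hz 1 h2 ▸ colE B.smv Cl hz h2 h1 (abs_lt.2 (by
        push_cast; constructor <;> linarith [at1 1, Real.arctan_pos.2 one_pos])) (H.free z hz 1 h1)))
    exact ⟨h3.1, fun c => h3.2.2 ((mem_img B T₁ H.sub).1 c).2⟩
  have dj : ∀ z ∈ Xo δ, ∀ w ∈ Xo δ, e₁ z ≠ e₂ w := fun z hz w hw e => by
    have h1 : |-Real.pi + 2 * Real.arctan 0| < a := abs_lt.2 (by simp; constructor <;> linarith)
    have h2 : |Real.pi + 2 * Real.arctan 0| < a := abs_lt.2 (by simp; constructor <;> linarith)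
    have h3 := ((Cl.eq (z, _) (w, _) hz h1 hw h2).1 (by rw [← s₁ z hz 0 h1, ← s₂ w hw 0 h2, e])).1
    simp only at h3
    linarith
  have k₁ : ∀ z ∈ Xo δ, e₁ z ∉ f₁ '' K := fun z hz c =>
    (E0 z hz).2 ((q₁ z hz).2 ▸ ((mem_img B T₁ H.sub).1 c).2)
  have k₂ : ∀ z ∈ Xo δ, e₂ z ∉ f₂ '' K := fun z hz c =>
    (E0 z hz).2 ((q₂ z hz).2 ▸ ((mem_img B T₂ H.sub).1 c).2)
  have k₃ : ∀ z ∈ Xo δ, e₂ z ∉ f₁ '' K := fun z hz => ha.elim (fun e => (q₃ e z hz).2) fun e => by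
    simp [e.2.1]
  have d0 := half_pos Cl.pos
  have d1 := half_lt_self Cl.pos
  have xs : Xc (δ / 2) ⊆ Xo δ := Hd34.Xc_sub d1
  obtain ⟨z₀, r, r0, hD, H3⟩ := Hd34.hd3Stmt δ (δ / 2) d0 d1 Cl.lt
  obtain ⟨o₁, cp₁, -, ⟨σ, hσ⟩, H1⟩ := Hd34.hd1Stmt R e₁ δ (δ / 2) h₁ d0 d1
  obtain ⟨o₂, cp₂, cn₂, -, -⟩ := Hd34.hd1Stmt R e₂ δ (δ / 2) h₂ d0 d1
  obtain ⟨an, rg, -, H1'⟩ := H1 σ hσ
  obtain ⟨dz1, du⟩ := H1' (δ / 2 / 2) (half_pos d0) le_rfl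
  obtain ⟨sd, -, -, d0', -⟩ := Hd34.delStmt R _ _ an (half_pos d0)
  generalize del (hA e₁ σ) (δ / 2 / 2) = d at dz1 du sd d0'
  have dn : ∀ x ∉ e₁ '' Xc (δ / 2), ∀ᶠ x' in 𝓝 x, d x' = 1 := fun x hx => by
    filter_upwards [cp₁.isClosed.isOpen_compl.mem_nhds hx] with x' h'
      using d0' x' fun c => h' (rg (image_subset_range _ _ c))
  have D1 : Metric.closedBall z₀ r ⊆ Xo δ := hD.trans sdiff_subset
  have cK₁ := H.cpt.image_of_continuousOn (cont_f B T₁ H.sub)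
  have cK₂ := H.cpt.image_of_continuousOn (cont_f B T₂ H.sub)
  have cD := (isCompact_closedBall z₀ r).image_of_continuousOn ((Hd34.contOn h₁).mono D1)
  have n₁ : e₁ '' Xo δ ⊆ F₁ \ f₁ '' K := by
    rintro _ ⟨z, hz, rfl⟩
    exact ⟨(q₁ z hz).1, k₁ z hz⟩
  have cH : IsCompact (e₁ '' (Xc (δ / 2) ∪ Metric.closedBall z₀ r)) := image_union _ _ _ ▸ cp₁.union cD
  have sH := image_mono (f := e₁) (union_subset xs D1)
  obtain ⟨ψ, w, um, sw, su, w1, sψ, nr, ev, lc⟩ := Hat42.hat Box46.trk Lsf39.ext Y R o v Φ M M' oR b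
    S F₁ f₁ π₁ (f₁ '' K ∪ e₁ '' (Xc (δ / 2) ∪ Metric.closedBall z₀ r) ∪ e₂ '' Xc (δ / 2)) d B X T₁
    ((cK₁.union cH).union cp₂).isClosed (ha.imp (fun e => by
      have n₂ : e₂ '' Xo δ ⊆ (F₁ \ f₁ '' K) \ e₁ '' (Xc (δ / 2) ∪ Metric.closedBall z₀ r) := by
        rintro _ ⟨z, hz, rfl⟩
        exact ⟨q₃ e z hz, fun ⟨z', h', e'⟩ => dj z' (union_subset xs D1 h') z hz e'⟩
      refine ⟨union_subset (union_subset (fun x hx => ((mem_img B T₁ H.sub).1 hx).1)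
        fun x hx => (n₁ (sH hx)).1) fun x hx => (n₂ (image_mono xs hx)).1.1, ?_⟩
      rw [← Set.sdiff_sdiff, ← Set.sdiff_sdiff]
      exact rem (rem (conn_up B T₁ H.sub H.conn') o₁ cH.isClosed sH n₁ (H3 R e₁ h₁).2) o₂
        cp₂.isClosed (image_mono xs) n₂ cn₂) fun e => e.2.2) sd
    (mem_nhdsSet_iff_forall.2 fun x hx => dn x fun c => hx (n₁ (image_mono xs c)).1)
  have oneK : ∀ y ∈ col v Φ K, ∀ᶠ z in 𝓝 y, ψ z = 1 := fun y hy => by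
    have h1 := (col_iff B T₁ H.sub).1 hy
    have h2 := T₁.opc.mem_nhds h1.1
    have h3 := T₁.sm.continuousOn.continuousAt h2
    filter_upwards [h2, h3 (mem_nhdsSet_iff_forall.1 lc _ (.inl (.inl h1.2))),
      h3 (dn _ fun c => (n₁ (image_mono xs c)).2 h1.2)] with z z1 z2 z3
    exact (z2 z z1 rfl).trans z3
  have i1 : (1 : ℝ) ∈ Ioc (0 : ℝ) 7 := ⟨one_pos, by norm_num⟩
  have i5 : (5 : ℝ) ∈ Ioc (0 : ℝ) 7 := ⟨by norm_num, by norm_num⟩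
  have wC := w1.self_of_nhdsSet
  obtain ⟨h, A, B', δ₁, ε₁, kk, ps, hd, ε0, ε1, sD, ⟨l₁, sl₁, m₁⟩, ⟨l₂, sl₂, m₂⟩, j₁, j₂⟩ :=
    surf R oR (f₁ '' K) (f₂ '' K) e₁ e₂ δ (δ / 2) (δ / 2 / 2) (d * w) um X.ori cR.isPreconnected
    cK₁.isClosed cK₂.isClosed
    (compl_eq_univ_sdiff _ ▸ rem cR.isPreconnected T₁.op cK₁.isClosed
      (fun x hx => ((mem_img B T₁ H.sub).1 hx).1) (subset_univ _) (conn_up B T₁ H.sub H.conn'))
    (compl_eq_univ_sdiff _ ▸ rem cR.isPreconnected T₂.op cK₂.isClosed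
      (fun x hx => ((mem_img B T₂ H.sub).1 hx).1) (subset_univ _) (conn_up B T₂ H.sub H.conn'))
    h₁ h₂ d0 d1 (half_pos d0) le_rfl (sd.mul sw) su
    (fun x hx => (ev x 1 i1).1.symm.trans
      (oneK _ ((b_col B T₁ H.sub (by simp)).2 hx)).self_of_nhds)
    (fun x hx => (ev x 1 i1).2.symm.trans
      (oneK _ ((b_col B T₂ H.sub (by simp)).2 hx)).self_of_nhds) fun z hz => by
      refine ⟨k₁ z (xs hz), k₂ z (xs hz), ?_, ?_⟩
      · rw [Pi.mul_apply, wC _ (.inl (.inr ⟨z, .inl hz, rfl⟩)), mul_one, dz1 z (xs hz)]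
      · have h1 := (col_iff B T₁ (sg z (xs hz))).1 (c0 z (xs hz) _ (g₂ _ neg_one_lt_zero))
        rw [← (ev _ 1 i1).2, t₂ z (xs hz) _ neg_one_lt_zero, ← dz1 z (xs hz)]
        refine lc.self_of_nhdsSet _ (.inl (.inr ⟨z, .inl hz, rfl⟩)) _ h1.1 ?_
        rw [image_singleton, mem_singleton_iff, ← (q₁ z (xs hz)).2, T₁.left _ (q₁ z (xs hz)).1] at h1
        exact h1.2
  have sL : K ∪ (fun z => E (z, 0)) '' Metric.closedBall z₀ r ⊆ PP Φ M :=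
    union_subset H.sub (image_subset_iff.2 fun z hz => (E0 z (D1 hz)).1)
  have iL : f₁ '' (K ∪ (fun z => E (z, 0)) '' Metric.closedBall z₀ r) =
      f₁ '' K ∪ e₁ '' Metric.closedBall z₀ r := by
    rw [image_union, image_image]
    exact congrArg _ (image_congr fun z hz => by
      rw [← (q₁ z (D1 hz)).2, T₁.left _ (q₁ z (D1 hz)).1])
  have lt : ∀ z ∈ Xc (δ / 2), e₁ z ∉ e₁ '' Metric.closedBall z₀ r := fun z hz ⟨z', h', e'⟩ =>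
    (hD h').2 (Hd34.Xc_lat ((h₁.eq z (xs hz) z' (D1 h')).1 e'.symm) hz)
  have tI : ∀ t : ℝ, (t * Complex.I : ℂ) ∈ Xc (δ / 2) := fun t => .inl ⟨0, by simpa using d0.le⟩
  have xo : Xo (δ / 2) ⊆ Xc (δ / 2) := fun _ hz =>
    hz.imp (fun ⟨n, hn⟩ => ⟨n, hn.le⟩) fun ⟨n, hn⟩ => ⟨n, hn.le⟩
  refine ⟨R, oR, b, ψ, h, del A ε₁, l₁, l₂, K ∪ (fun z => E (z, 0)) '' Metric.closedBall z₀ r,
    fun t : ℝ => e₁ (t * Complex.I), e₁, e₂, δ / 2, Metric.ball z₀ r, X, cR.isPreconnected, kk, ps,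
    ⟨A, B', δ₁, ε₁, hd, ε0, ε1, rfl⟩, sD, sl₁, sl₂, sψ, nr,
    fun x s hs => ⟨(ev x s hs).1.trans (m₁ x), (ev x s hs).2.trans (m₂ x)⟩,
    H.cpt.union ((isCompact_closedBall z₀ r).image_of_continuousOn fun z hz => ?_), sL,
    subset_union_left, conn_dn B T₁ sL ?_, fun x hx => ?_, ⟨du.1, du.2.1, ?_⟩, fun t => ?_,
    ⟨d0, d1.trans Cl.lt, fun z hz => h₂.ld z (xs (xo hz)),
      fun z hz w hw => h₂.eq z (xs (xo hz)) w (xs (xo hw))⟩, fun z hz => ⟨?_, fun c => ?_⟩, oneK,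
    fun x s hs c => mem_nhdsSet_iff_forall.1 j₁ x ((b_col B T₁ H.sub (by simpa using hs)).1 c),
    fun x s hs c => mem_nhdsSet_iff_forall.1 j₂ x ((b_col B T₂ H.sub (by simpa using hs)).1 c),
    Metric.isOpen_ball, Metric.nonempty_ball.2 r0, Metric.ball_subset_closedBall.trans D1,
    fun z hz => .inr ⟨z, Metric.ball_subset_closedBall hz, rfl⟩,
    fun z hz => t₁ z (D1 (Metric.ball_subset_closedBall hz)),
    fun z hz => t₂ z (D1 (Metric.ball_subset_closedBall hz))⟩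
  · exact ((Cl.ld (z, 0) (D1 hz) (by simp; linarith)).contMDiffAt.continuousAt.comp
      (f := fun z : ℂ => (z, (0 : ℝ))) (by fun_prop)).continuousWithinAt
  · rw [iL, ← Set.sdiff_sdiff]
    exact rem (conn_up B T₁ H.sub H.conn') o₁ cD.isClosed (image_mono D1) n₁ (H3 R e₁ h₁).1
  · rw [b_col B T₁ sL (by norm_num), iL] at hx
    filter_upwards [mem_nhdsSet_iff_forall.1 w1 x
      (.inl (hx.imp id fun c => image_mono subset_union_right c)), dn x fun ⟨z, hz, e⟩ =>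
        hx.elim (k₁ z (xs hz) <| e ▸ ·) (lt z hz <| e ▸ ·)] with x' h1 h2
    rw [(ev x' 5 i5).1, h1, h2, mul_one]
  · obtain ⟨l, l1, l2, l3⟩ := du.2.2
    refine ⟨l, l1, fun t => ?_, l3⟩
    refine (ev _ 5 i5).1.trans ?_
    rw [wC _ (.inl (.inr ⟨_, .inl (tI t), rfl⟩)), mul_one]
    exact l2 t
  · rw [b_col B T₁ sdiff_subset (by norm_num), mem_img B T₁ sdiff_subset]
    refine ⟨(q₁ _ (xs (tI t))).1, T₁.maps' (q₁ _ (xs (tI t))).1, fun c => ?_⟩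
    have h1 := (mem_img B T₁ sL).2 ⟨(q₁ _ (xs (tI t))).1, c⟩
    rw [iL] at h1
    exact h1.elim (k₁ _ (xs (tI t))) (lt _ (tI t))
  · rw [(ev _ 5 i5).1, wC _ (.inr ⟨z, xo hz, rfl⟩), mul_one]
    exact (dn _ fun ⟨z', h', e'⟩ => dj z' (xs h') z (xs (xo hz)) e').self_of_nhds
  · rw [b_col B T₁ sL (by norm_num), iL] at c
    exact c.elim (k₃ z (xs (xo hz))) fun ⟨z', h', e'⟩ => dj z' (D1 h') z (xs (xo hz)) e'

end Crest.Agent.X212.Stp42
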